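import Vale.Agent.P264.Ref.UnitRef
import Vale.Agent.P264.Middle.Targets
import Vale.Agent.P264.Middle.Blocks
import Vale.Agent.P264.Assembly.GrowthTargets

/-!
The reference module: everything reduces to unit length by scaling.
-/

namespace Vale.Agent.P264.Ref

open Set Filter
open scoped ContDiff Topology

variable (σ : Shrinker) {L t x : ℝ}

/-- The time at unit length corresponding to `t` at length `L`. -/
noncomputable def tUnit (L t : ℝ) : ℝ := 1 - (1 - t) / L ^ 2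

theorem sqrt_tUnit (hL : 0 < L) (t : ℝ) :
    Real.sqrt (1 - tUnit L t) = Real.sqrt (1 - t) / L := by
  rw [tUnit, sub_sub_cancel, Real.sqrt_div' _ (sq_nonneg L), Real.sqrt_sq hL.le]

theorem chiL_scale (L x : ℝ) : chiL L x = chiL 1 (x / L) := by
  rw [chiL, chiL, div_one, ← mul_div_assoc]

theorem phiOut_scale (hL : 0 < L) (x : ℝ) : phiOut σ L x = L * phiOut σ 1 (x / L) := by
  rw [phiOut, phiOut, chiL_scale L]
  field_simp

theorem phiRef_scale (hL : 0 < L) (t x : ℝ) :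
    phiRef σ L t x = L * phiRef σ 1 (tUnit L t) (x / L) := by
  have hLne := hL.ne'
  set r := Real.sqrt (1 - t)
  unfold phiRef
  rw [sqrt_tUnit hL]
  rcases le_or_gt x (L / 4) with h | h
  · have h' : x / L ≤ 1 / 4 := by rw [div_le_iff₀ hL]; linarith
    rw [if_pos h, if_pos h', div_div_div_cancel_right₀ hLne]
    field_simp
  · have h' : ¬ x / L ≤ 1 / 4 := by rw [div_le_iff₀ hL]; linarith
    rw [if_neg (not_le.2 h), if_neg h', phiOut_scale σ hL]
    have e : (fun z => chiL L z * (r * Dcor σ (z / r)))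
        = fun z => L * (fun v => chiL 1 v * (r / L * Dcor σ (v / (r / L)))) (z / L) := by
      funext z
      show chiL L z * (r * Dcor σ (z / r))
        = L * (chiL 1 (z / L) * (r / L * Dcor σ (z / L / (r / L))))
      rw [chiL_scale L, div_div_div_cancel_right₀ hLne]
      field_simp
    show L * phiOut σ 1 (x / L) / (1 + L * phiOut σ 1 (x / L)
      * deriv (deriv (fun z => chiL L z * (r * Dcor σ (z / r)))) x) = _
    rw [e, deriv2_scale (fun v => chiL 1 v * (r / L * Dcor σ (v / (r / L)))),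
      mul_div_assoc L]
    congr 3
    show _ = phiOut σ 1 (x / L)
      * deriv (deriv (fun v => chiL 1 v * (r / L * Dcor σ (v / (r / L))))) (x / L)
    generalize deriv (deriv (fun v => chiL 1 v * (r / L * Dcor σ (v / (r / L))))) (x / L) = G
    field_simp

theorem refS_scale (hL : 0 < L) (t x : ℝ) :
    refS σ L t x = refS σ 1 (tUnit L t) (x / L) / L := by
  rw [refS, refS, sqrt_tUnit hL, chiL_scale L, div_div_div_cancel_right₀ hL.ne']
  field_simp

theorem fRef_scale (hL : 0 < L) (t x : ℝ) :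
    fRef σ L t x = fRef σ 1 (tUnit L t) (x / L) / L := by
  have e : phiRef σ L t = fun z => L * phiRef σ 1 (tUnit L t) (z / L) :=
    funext (phiRef_scale σ hL t)
  rw [fRef, fRef, e, scal_scale _ hL.ne', refS_scale σ hL, sub_div]

theorem deriv_phiRef_scale (hL : 0 < L) (t x : ℝ) :
    deriv (phiRef σ L t) x = deriv (phiRef σ 1 (tUnit L t)) (x / L) := by
  have e : phiRef σ L t = fun z => L * phiRef σ 1 (tUnit L t) (z / L) :=
    funext (phiRef_scale σ hL t)
  rw [e]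
  simp only [div_eq_inv_mul]
  rw [deriv_const_mul_field, deriv_comp_mul_left, smul_eq_mul, ← mul_assoc,
    mul_inv_cancel₀ hL.ne', one_mul]

theorem base_scale (hL : 0 < L) (x : ℝ) :
    Middle.base L x = L * min (x / L) (1 - x / L) := by
  rw [Middle.base, mul_min_of_nonneg _ _ hL.le]
  congr 1 <;> field_simp

/-- All facts about the reference for long intervals. -/
theorem ref_facts : ∃ L₀ C : ℝ, 0 < L₀ ∧ 1 ≤ C ∧ ∀ L : ℝ, L₀ ≤ L →
    ContDiffOn ℝ ∞ (Function.uncurry (phiRef σ L)) (Ico 0 1 ×ˢ Icc 0 L) ∧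
    ∀ t ∈ Ico (0:ℝ) 1, IsProfile L (phiRef σ L t) ∧ ∀ x ∈ Ioo 0 L,
      |deriv (phiRef σ L t) x| ≤ C ∧ |fRef σ L t x| ≤ C / L ∧
      (x < L / 4 → fRef σ L t x = 0) ∧
      Middle.base L x ≤ C * phiRef σ L t x ∧ phiRef σ L t x ≤ C * Middle.base L x := by
  obtain ⟨r₀, C, hr0, hr1, hC, hsm, hun⟩ := unit_facts σ
  refine ⟨1 / r₀, C, by positivity, hC, fun L hL => ?_⟩
  have hL0 : 0 < L := lt_of_lt_of_le (by positivity) hL
  have htm : ∀ t ∈ Ico (0:ℝ) 1, tUnit L t ∈ Ico (1 - r₀ ^ 2) 1 := fun t ht => by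
    constructor
    · rw [tUnit, sub_le_sub_iff_left, div_le_iff₀ (pow_pos hL0 2)]
      calc 1 - t ≤ 1 ^ 2 := by linarith [ht.1]
        _ ≤ (r₀ * L) ^ 2 := by
            rw [div_le_iff₀ hr0] at hL
            gcongr
            linarith
        _ = r₀ ^ 2 * L ^ 2 := by ring
    · rw [tUnit, sub_lt_self_iff]
      exact div_pos (by linarith [ht.2]) (pow_pos hL0 2)
  have hxm : ∀ x ∈ Icc 0 L, x / L ∈ Icc (0:ℝ) 1 := fun x hx =>
    ⟨div_nonneg hx.1 hL0.le, (div_le_one hL0).2 hx.2⟩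
  refine ⟨?_, fun t ht => ?_⟩
  · have := contDiffOn_const.mul (hsm.comp
      (f := fun p : ℝ × ℝ => (tUnit L p.1, p.2 / L))
      (((contDiff_const.sub ((contDiff_const.sub contDiff_fst).div_const (L ^ 2))).prodMk
        (contDiff_snd.div_const L)).contDiffOn (s := Ico 0 1 ×ˢ Icc 0 L))
      fun p hp => ⟨htm p.1 hp.1, hxm p.2 hp.2⟩) (f := fun _ => L)
    exact this.congr fun p _ => phiRef_scale σ hL0 p.1 p.2
  obtain ⟨hp, hx'⟩ := hun _ (htm t ht)
  have hm : ∀ x ∈ Ioo 0 L, x / L ∈ Ioo (0:ℝ) 1 := fun x hx =>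
    ⟨div_pos hx.1 hL0, (div_lt_one hL0).2 hx.2⟩
  have e : phiRef σ L t = fun z => L * phiRef σ 1 (tUnit L t) (z / L) :=
    funext (phiRef_scale σ hL0 t)
  have hd : ∀ z ∈ Icc 0 L, derivWithin (phiRef σ L t) (Icc 0 L) z
      = derivWithin (phiRef σ 1 (tUnit L t)) (Icc 0 1) (z / L) := fun z hz => by
    have h := (((hp.smooth.differentiableOn (by simp)) (z / L) (hxm z hz)).hasDerivWithinAt.comp z
      ((hasDerivAt_id z).div_const L).hasDerivWithinAt
      (fun w hw => hxm w hw : MapsTo (fun w => id w / L) (Icc 0 L) (Icc 0 1))).const_mul L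
    rw [e]
    refine (h.congr_deriv ?_).derivWithin (uniqueDiffOn_Icc hL0 z hz)
    field_simp
  refine ⟨⟨?_, ?_, ?_, ?_, ?_, ?_⟩, fun x hx => ?_⟩
  · rw [e]
    exact contDiffOn_const.mul (hp.smooth.comp (contDiff_id.div_const L).contDiffOn hxm)
  · rw [phiRef_scale σ hL0, zero_div, hp.left, mul_zero]
  · rw [phiRef_scale σ hL0, div_self hL0.ne', hp.right, mul_zero]
  · rw [hd 0 ⟨le_rfl, hL0.le⟩, zero_div, hp.slope_left]
  · rw [hd L ⟨hL0.le, le_rfl⟩, div_self hL0.ne', hp.slope_right]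
  · intro x hx
    rw [phiRef_scale σ hL0]
    exact mul_pos hL0 (hp.pos _ (hm x hx))
  obtain ⟨h1, h2, h3, h4, h5⟩ := hx' _ (hm x hx)
  refine ⟨by rwa [deriv_phiRef_scale σ hL0], ?_, fun h => ?_, ?_, ?_⟩
  · rw [fRef_scale σ hL0, abs_div, abs_of_pos hL0]
    exact div_le_div_of_nonneg_right h2 hL0.le
  · rw [fRef_scale σ hL0, h3 (by rw [div_lt_iff₀ hL0]; linarith), zero_div]
  · rw [phiRef_scale σ hL0, base_scale hL0, mul_left_comm]
    exact mul_le_mul_of_nonneg_left h4 hL0.le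
  · rw [phiRef_scale σ hL0, base_scale hL0, mul_left_comm]
    exact mul_le_mul_of_nonneg_left h5 hL0.le

theorem refTarget : Middle.RefTarget := fun σ => by
  obtain ⟨L₀, C, hL0, hC, h⟩ := ref_facts σ
  exact ⟨L₀, C, hL0, by linarith, fun L hL => ⟨fun t ht => ((h L hL).2 t ht).1, (h L hL).1,
    fun t ht x hx => ⟨(((h L hL).2 t ht).2 x hx).2.1, (((h L hL).2 t ht).2 x hx).2.2.1⟩⟩⟩

theorem refSlope : Assembly.RefSlope := fun σ => by
  obtain ⟨L₀, C, hL0, -, h⟩ := ref_facts σ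
  exact ⟨L₀, C, hL0, fun L hL t ht x hx => (((h L hL).2 t ht).2 x hx).1⟩

end Vale.Agent.P264.Ref
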