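import Mathlib

/-!
Bounds on two derivatives, uniform in a scale parameter, on the interval `(1/8, 1)`.
-/

namespace Vale.Agent.P264.Ref

open Set Filter
open scoped ContDiff Topology

/-- Second order data bounded by `C` at `u`. -/
def Bd (f : ℝ → ℝ) (C u : ℝ) : Prop :=
  ContDiffAt ℝ 2 f u ∧ |f u| ≤ C ∧ |deriv f u| ≤ C ∧ |deriv (deriv f) u| ≤ C

/-- A family bounded in second order on `(1/8, 1)`, uniformly for scales in `(0, r₀]`. -/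
def UBd (r₀ : ℝ) (F : ℝ → ℝ → ℝ) : Prop :=
  ∃ C : ℝ, 0 ≤ C ∧ ∀ r ∈ Ioc 0 r₀, ∀ u ∈ Ioo (1 / 8 : ℝ) 1, Bd (F r) C u

theorem two_derivs {f : ℝ → ℝ} {u : ℝ} (hf : ContDiffAt ℝ 2 f u) :
    (∀ᶠ z in 𝓝 u, HasDerivAt f (deriv f z) z) ∧
      HasDerivAt (deriv f) (deriv (deriv f) u) u := by
  refine ⟨?_, ((hf.derivWithin (m := 1) (by norm_num)).differentiableAt (by simp)).hasDerivAt⟩
  filter_upwards [hf.eventually (by simp)] with z hz
  exact (hz.differentiableAt (by simp)).hasDerivAt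

theorem Bd.mono {f : ℝ → ℝ} {C C' u : ℝ} (h : Bd f C u) (hC : C ≤ C') : Bd f C' u :=
  ⟨h.1, h.2.1.trans hC, h.2.2.1.trans hC, h.2.2.2.trans hC⟩

theorem Bd.congr {f g : ℝ → ℝ} {C u : ℝ} (h : Bd f C u) (he : g =ᶠ[𝓝 u] f) : Bd g C u :=
  ⟨h.1.congr_of_eventuallyEq he, by rw [he.eq_of_nhds]; exact h.2.1,
    by rw [he.deriv_eq]; exact h.2.2.1, by rw [he.deriv.deriv_eq]; exact h.2.2.2⟩

theorem Bd.add {f g : ℝ → ℝ} {A B u : ℝ} (hf : Bd f A u) (hg : Bd g B u) :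
    Bd (fun z => f z + g z) (A + B) u := by
  obtain ⟨ef, df⟩ := two_derivs hf.1
  obtain ⟨eg, dg⟩ := two_derivs hg.1
  have e : deriv (fun z => f z + g z) =ᶠ[𝓝 u] fun z => deriv f z + deriv g z := by
    filter_upwards [ef, eg] with z a b using (a.fun_add b).deriv
  refine ⟨hf.1.add hg.1, (abs_add_le _ _).trans (add_le_add hf.2.1 hg.2.1), ?_, ?_⟩
  · rw [e.eq_of_nhds]; exact (abs_add_le _ _).trans (add_le_add hf.2.2.1 hg.2.2.1)
  · rw [e.deriv_eq, (df.fun_add dg).deriv]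
    exact (abs_add_le _ _).trans (add_le_add hf.2.2.2 hg.2.2.2)

theorem Bd.mul {f g : ℝ → ℝ} {A B u : ℝ} (hf : Bd f A u) (hg : Bd g B u) :
    Bd (fun z => f z * g z) (4 * A * B) u := by
  obtain ⟨ef, df⟩ := two_derivs hf.1
  obtain ⟨eg, dg⟩ := two_derivs hg.1
  obtain ⟨cf, f0, f1, f2⟩ := hf
  obtain ⟨cg, g0, g1, g2⟩ := hg
  have hA := (abs_nonneg _).trans f0
  have hB := (abs_nonneg _).trans g0
  have e : deriv (fun z => f z * g z) =ᶠ[𝓝 u]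
      fun z => deriv f z * g z + f z * deriv g z := by
    filter_upwards [ef, eg] with z a b using (a.fun_mul b).deriv
  have pm : ∀ {a b : ℝ}, |a| ≤ A → |b| ≤ B → |a * b| ≤ A * B := fun ha hb => by
    rw [abs_mul]; exact mul_le_mul ha hb (abs_nonneg _) hA
  refine ⟨cf.mul cg, ?_, ?_, ?_⟩
  · linarith [pm f0 g0, mul_nonneg hA hB]
  · rw [e.eq_of_nhds]
    linarith [abs_add_le (deriv f u * g u) (f u * deriv g u), pm f1 g0, pm f0 g1,
      mul_nonneg hA hB]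
  · rw [e.deriv_eq, ((df.fun_mul eg.self_of_nhds).fun_add (ef.self_of_nhds.fun_mul dg)).deriv]
    linarith [abs_add_le (deriv (deriv f) u * g u + deriv f u * deriv g u)
        (deriv f u * deriv g u + f u * deriv (deriv g) u),
      abs_add_le (deriv (deriv f) u * g u) (deriv f u * deriv g u),
      abs_add_le (deriv f u * deriv g u) (f u * deriv (deriv g) u),
      pm f2 g0, pm f1 g1, pm f0 g2]

theorem Bd.inv {f : ℝ → ℝ} {C m u : ℝ} (hf : Bd f C u) (hm : 0 < m) (hlo : m ≤ |f u|) :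
    Bd (fun z => (f z)⁻¹) (m⁻¹ + C / m ^ 2 + 2 * C ^ 2 / m ^ 3) u := by
  obtain ⟨ef, df⟩ := two_derivs hf.1
  obtain ⟨cd, -, f1, f2⟩ := hf
  have hC := (abs_nonneg _).trans f1
  have h0 : f u ≠ 0 := fun h => by rw [h, abs_zero] at hlo; linarith
  have hne : ∀ᶠ z in 𝓝 u, f z ≠ 0 := cd.continuousAt.eventually_ne h0
  have e : deriv (fun z => (f z)⁻¹) =ᶠ[𝓝 u] fun z => -(deriv f z) / f z ^ 2 := by
    filter_upwards [ef, hne] with z a b using (a.fun_inv b).deriv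
  have hd := df.fun_neg.fun_div (ef.self_of_nhds.fun_pow 2) (pow_ne_zero 2 h0)
  have p2 : m ^ 2 ≤ |f u| ^ 2 := pow_le_pow_left₀ hm.le hlo 2
  have p3 : m ^ 3 ≤ |f u| ^ 3 := pow_le_pow_left₀ hm.le hlo 3
  have t0 : 0 ≤ m⁻¹ := by positivity
  have t1 : 0 ≤ C / m ^ 2 := by positivity
  have t2 : 0 ≤ 2 * C ^ 2 / m ^ 3 := by positivity
  refine ⟨cd.inv h0, ?_, ?_, ?_⟩
  · rw [abs_inv]
    linarith [inv_anti₀ hm hlo]
  · rw [e.eq_of_nhds, abs_div, abs_neg, abs_pow]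
    linarith [div_le_div₀ hC f1 (pow_pos hm 2) p2]
  · rw [e.deriv_eq, hd.deriv]
    have : (-deriv (deriv f) u * f u ^ 2 - -deriv f u * (↑(2:ℕ) * f u ^ (2 - 1) * deriv f u))
        / (f u ^ 2) ^ 2 = -deriv (deriv f) u / f u ^ 2 + 2 * deriv f u ^ 2 / f u ^ 3 := by
      field_simp
      push_cast
      ring
    rw [this]
    refine (abs_add_le _ _).trans ?_
    rw [abs_div, abs_div, abs_neg, abs_mul, abs_two, abs_pow, abs_pow, abs_pow]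
    linarith [div_le_div₀ hC f2 (pow_pos hm 2) p2,
      div_le_div₀ (mul_nonneg zero_le_two (sq_nonneg C))
        (mul_le_mul_of_nonneg_left (pow_le_pow_left₀ (abs_nonneg _) f1 2) zero_le_two)
        (pow_pos hm 3) p3]

variable {r₀ : ℝ} {F G : ℝ → ℝ → ℝ}

theorem UBd.mono {r₁ : ℝ} (h : UBd r₀ F) (hr : r₁ ≤ r₀) : UBd r₁ F :=
  h.imp fun _ hC => ⟨hC.1, fun r hr' => hC.2 r ⟨hr'.1, hr'.2.trans hr⟩⟩

theorem UBd.congr (h : UBd r₀ F)
    (he : ∀ r ∈ Ioc 0 r₀, ∀ u ∈ Ioo (1 / 8 : ℝ) 1, G r u = F r u) : UBd r₀ G := by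
  obtain ⟨C, hC0, hC⟩ := h
  exact ⟨C, hC0, fun r hr u hu => (hC r hr u hu).congr
    (eventuallyEq_of_mem (isOpen_Ioo.mem_nhds hu) (he r hr))⟩

theorem UBd.add (hF : UBd r₀ F) (hG : UBd r₀ G) : UBd r₀ fun r u => F r u + G r u := by
  obtain ⟨A, hA0, hA⟩ := hF
  obtain ⟨B, hB0, hB⟩ := hG
  exact ⟨A + B, by linarith, fun r hr u hu => (hA r hr u hu).add (hB r hr u hu)⟩

theorem UBd.mul (hF : UBd r₀ F) (hG : UBd r₀ G) : UBd r₀ fun r u => F r u * G r u := by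
  obtain ⟨A, hA0, hA⟩ := hF
  obtain ⟨B, hB0, hB⟩ := hG
  exact ⟨4 * A * B, by positivity, fun r hr u hu => (hA r hr u hu).mul (hB r hr u hu)⟩

theorem UBd.inv {m : ℝ} (hm : 0 < m) (hF : UBd r₀ F)
    (hlo : ∀ r ∈ Ioc 0 r₀, ∀ u ∈ Ioo (1 / 8 : ℝ) 1, m ≤ |F r u|) :
    UBd r₀ fun r u => (F r u)⁻¹ := by
  obtain ⟨A, hA0, hA⟩ := hF
  exact ⟨m⁻¹ + A / m ^ 2 + 2 * A ^ 2 / m ^ 3, by positivity,
    fun r hr u hu => (hA r hr u hu).inv hm (hlo r hr u hu)⟩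

theorem UBd.const_fun {f : ℝ → ℝ} (hf : ContDiff ℝ ∞ f) : UBd r₀ fun _ => f := by
  have h1 : ContDiff ℝ ∞ (deriv f) := (contDiff_infty_iff_deriv.1 hf).2
  have h2 : Continuous (deriv (deriv f)) := (contDiff_infty_iff_deriv.1 h1).2.continuous
  obtain ⟨C, hC⟩ := (isCompact_Icc (a := (0:ℝ)) (b := 1)).exists_bound_of_continuousOn
    (((hf.continuous.abs).add h1.continuous.abs).add h2.abs).continuousOn
  refine ⟨max C 0, le_max_right _ _, fun r _ u hu => ?_⟩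
  have hb := ((le_abs_self _).trans (hC u ⟨by linarith [hu.1], hu.2.le⟩)).trans (le_max_left C 0)
  simp only [Pi.add_apply] at hb
  exact ⟨hf.contDiffAt.of_le (WithTop.coe_le_coe.2 le_top),
    by linarith [abs_nonneg (deriv f u), abs_nonneg (deriv (deriv f) u)],
    by linarith [abs_nonneg (f u), abs_nonneg (deriv (deriv f) u)],
    by linarith [abs_nonneg (f u), abs_nonneg (deriv f u)]⟩

/-- A bounded family with bounded derivative `G`, itself with bounded derivative. -/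
theorem UBd.of_deriv
    (hG : ∃ B, ∀ r ∈ Ioc 0 r₀, ∀ u ∈ Ioo (1 / 8 : ℝ) 1, |G r u| ≤ B ∧ |deriv (G r) u| ≤ B)
    (hs : ∀ r ∈ Ioc 0 r₀, ∀ u ∈ Ioo (1 / 8 : ℝ) 1, ContDiffAt ℝ 2 (F r) u)
    (hd : ∀ r ∈ Ioc 0 r₀, ∀ u ∈ Ioo (1 / 8 : ℝ) 1, HasDerivAt (F r) (G r u) u)
    (hv : ∃ C, ∀ r ∈ Ioc 0 r₀, ∀ u ∈ Ioo (1 / 8 : ℝ) 1, |F r u| ≤ C) : UBd r₀ F := by
  obtain ⟨B, hB⟩ := hG
  obtain ⟨C, hC⟩ := hv
  refine ⟨max (max C B) 0, le_max_right _ _, fun r hr u hu => Bd.mono (C := max C B) ?_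
    (le_max_left _ _)⟩
  have e : deriv (F r) =ᶠ[𝓝 u] G r :=
    eventuallyEq_of_mem (isOpen_Ioo.mem_nhds hu) fun z hz => (hd r hr z hz).deriv
  exact ⟨hs r hr u hu, (hC r hr u hu).trans (le_max_left _ _),
    by rw [e.eq_of_nhds]; exact (hB r hr u hu).1.trans (le_max_right _ _),
    by rw [e.deriv_eq]; exact (hB r hr u hu).2.trans (le_max_right _ _)⟩

end Vale.Agent.P264.Ref
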