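import Vale.Agent.P264.Dict.Outer

/-!
A priori facts on a shrinker: `q` is bounded above and below, `y q'` and `y^2 q''` are bounded,
and the correction `D` satisfies `|D| <= C / y`, `|D'| <= C / y^2`.
-/

namespace Vale.Agent.P264.Ref

open Set Filter MeasureTheory
open scoped ContDiff Topology

variable (σ : Shrinker)

theorem S_bound : ∃ C : ℝ, 0 ≤ C ∧ ∀ y, 0 ≤ y → |σ.S y| ≤ C ∧ y * |σ.S y| ≤ C := by
  obtain ⟨C, hC⟩ := σ.S_decay
  have hC0 : 0 ≤ C := by simpa using (abs_nonneg _).trans (hC 0 le_rfl)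
  refine ⟨C, hC0, fun y hy => ⟨(hC y hy).trans (div_le_self hC0 (by linarith)), ?_⟩⟩
  calc y * |σ.S y| ≤ y * (C / (1 + y)) := mul_le_mul_of_nonneg_left (hC y hy) hy
    _ ≤ (1 + y) * (C / (1 + y)) := by gcongr; linarith
    _ = C := by field_simp

theorem q_smoothAt {y : ℝ} (hy : 0 < y) : ContDiffAt ℝ ∞ σ.q y :=
  σ.q_smooth.contDiffAt (Ici_mem_nhds hy)

theorem hasDerivAt_q {y : ℝ} (hy : 0 < y) : HasDerivAt σ.q (deriv σ.q y) y :=
  ((q_smoothAt σ hy).differentiableAt (by simp)).hasDerivAt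

theorem hasDerivAt_dq {y : ℝ} (hy : 0 < y) :
    HasDerivAt (deriv σ.q) (deriv (deriv σ.q) y) y :=
  (((q_smoothAt σ hy).of_le (m := 2) (WithTop.coe_le_coe.2 le_top)).derivWithin (m := 1)
    (by norm_num)).differentiableAt (by simp) |>.hasDerivAt

/-- The curvature equation written out in `q`. -/
theorem q_second {y : ℝ} (hy : 0 < y) :
    y ^ 8 * deriv (deriv σ.q) y + 16 * y ^ 7 * deriv σ.q y + 56 * y ^ 6 * σ.q y
      = 56 * y ^ 6 - y ^ 7 * σ.S y := by
  have e : deriv (fun z => z ^ 7 * (z * σ.q z)) =ᶠ[𝓝 y]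
      fun z => 8 * z ^ 7 * σ.q z + z ^ 8 * deriv σ.q z := by
    filter_upwards [Ioi_mem_nhds hy] with z hz
    refine (((hasDerivAt_id z).fun_pow 7).mul ((hasDerivAt_id z).mul
      (hasDerivAt_q σ hz))).congr_deriv ?_ |>.deriv
    simp only [id, Pi.mul_apply]
    push_cast
    ring
  have h2 := ((((hasDerivAt_id y).fun_pow 7).const_mul 8).mul (hasDerivAt_q σ hy)).add
    (((hasDerivAt_id y).fun_pow 8).mul (hasDerivAt_dq σ hy))
  have h3 : deriv (fun z => 8 * z ^ 7 * σ.q z + z ^ 8 * deriv σ.q z) y = _ := h2.deriv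
  have h := σ.S_eq y hy
  rw [scal, e.deriv_eq, h3] at h
  simp only [id] at h
  push_cast at h
  field_simp at h
  linear_combination y ^ 6 * h

theorem nonneg_of_deriv_nonneg {f f' : ℝ → ℝ} (hc : ContinuousOn f (Ici 0)) (h0 : f 0 = 0)
    (hd : ∀ y, 0 < y → HasDerivAt f (f' y) y) (hn : ∀ y, 0 < y → 0 ≤ f' y) {y : ℝ} (hy : 0 ≤ y) :
    0 ≤ f y := by
  have hm : MonotoneOn f (Ici 0) := monotoneOn_of_hasDerivWithinAt_nonneg (convex_Ici 0) hc
    (f' := f') (fun z hz => by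
      rw [interior_Ici] at hz; exact (hd z hz).hasDerivWithinAt)
    (fun z hz => by rw [interior_Ici] at hz; exact hn z hz)
  rw [← h0]
  exact hm self_mem_Ici hy hy

/-- Bounds on `q` and its first two derivatives. -/
theorem q_bounds : ∃ Q : ℝ, 1 ≤ Q ∧ ∀ y, 0 < y →
    σ.q y ≤ Q ∧ |y * deriv σ.q y| ≤ Q ∧ |y ^ 2 * deriv (deriv σ.q) y| ≤ Q := by
  obtain ⟨C, hC0, hC⟩ := S_bound σ
  refine ⟨1 + 20 * C, by linarith, ?_⟩
  set dq := derivWithin σ.q (Ici 0)
  have hdq : ∀ y, 0 < y → dq y = deriv σ.q y := fun y hy =>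
    derivWithin_of_mem_nhds (Ici_mem_nhds hy)
  have hdc : ContinuousOn dq (Ici 0) :=
    σ.q_smooth.continuousOn_derivWithin (uniqueDiffOn_Ici 0) (by simp)
  set hh : ℝ → ℝ := fun z => 8 * z ^ 7 * σ.q z + z ^ 8 * dq z - 8 * z ^ 7
  have hhc : ContinuousOn hh (Ici 0) :=
    (((continuousOn_const.mul (continuousOn_id.pow 7)).mul σ.q_smooth.continuousOn).add
      ((continuousOn_id.pow 8).mul hdc)).sub (continuousOn_const.mul (continuousOn_id.pow 7))
  have hhd : ∀ y, 0 < y → HasDerivAt hh (-(y ^ 7 * σ.S y)) y := by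
    intro y hy
    refine HasDerivAt.congr_of_eventuallyEq
      (f := fun z => 8 * z ^ 7 * σ.q z + z ^ 8 * deriv σ.q z - 8 * z ^ 7) ?_ ?_
    · refine ((((((hasDerivAt_id y).fun_pow 7).const_mul 8).mul (hasDerivAt_q σ hy)).add
        (((hasDerivAt_id y).fun_pow 8).mul (hasDerivAt_dq σ hy))).sub
        (((hasDerivAt_id y).fun_pow 7).const_mul 8)).congr_deriv ?_
      simp only [id]
      push_cast
      linarith [q_second σ hy]
    · filter_upwards [Ioi_mem_nhds hy] with z hz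
      simp only [hh, hdq z hz]
  have b1 : ∀ y, 0 ≤ y → |hh y| ≤ C / 7 * y ^ 7 := by
    intro y hy
    have hb : ∀ z, 0 < z → |z ^ 7 * σ.S z| ≤ C * z ^ 6 := fun z hz => by
      rw [abs_mul, abs_of_pos (pow_pos hz 7), pow_succ, mul_assoc, mul_comm C]
      exact mul_le_mul_of_nonneg_left (hC z hz.le).2 (pow_nonneg hz.le 6)
    have pc : ContinuousOn (fun z : ℝ => C / 7 * z ^ 7) (Ici 0) :=
      (continuous_const.mul (continuous_pow 7)).continuousOn
    have pd : ∀ z : ℝ, HasDerivAt (fun z : ℝ => C / 7 * z ^ 7) (C * z ^ 6) z := fun z =>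
      (((hasDerivAt_id z).fun_pow 7).const_mul (C / 7)).congr_deriv (by simp; ring)
    have p1 := nonneg_of_deriv_nonneg (f := fun z => C / 7 * z ^ 7 + hh z) (pc.add hhc)
      (by simp [hh]) (fun z hz => (pd z).add (hhd z hz))
      (fun z hz => by linarith [(abs_le.1 (hb z hz)).2]) hy
    have p2 := nonneg_of_deriv_nonneg (f := fun z => C / 7 * z ^ 7 - hh z) (pc.sub hhc)
      (by simp [hh]) (fun z hz => (pd z).sub (hhd z hz))
      (fun z hz => by linarith [(abs_le.1 (hb z hz)).1]) hy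
    exact abs_le.2 ⟨by linarith, by linarith⟩
  have b0 : ∀ y, 0 ≤ y → |y ^ 8 * σ.q y - y ^ 8| ≤ C / 56 * y ^ 8 := by
    intro y hy
    have pc : ContinuousOn (fun z : ℝ => C / 56 * z ^ 8) (Ici 0) :=
      (continuous_const.mul (continuous_pow 8)).continuousOn
    have pd : ∀ z : ℝ, HasDerivAt (fun z : ℝ => C / 56 * z ^ 8) (C / 7 * z ^ 7) z := fun z =>
      (((hasDerivAt_id z).fun_pow 8).const_mul (C / 56)).congr_deriv (by simp; ring)
    have gc : ContinuousOn (fun z => z ^ 8 * σ.q z - z ^ 8) (Ici 0) :=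
      ((continuousOn_id.pow 8).mul σ.q_smooth.continuousOn).sub (continuousOn_id.pow 8)
    have gd : ∀ z, 0 < z → HasDerivAt (fun z => z ^ 8 * σ.q z - z ^ 8) (hh z) z := fun z hz =>
      ((((hasDerivAt_id z).fun_pow 8).mul (hasDerivAt_q σ hz)).sub
        ((hasDerivAt_id z).fun_pow 8)).congr_deriv (by simp [hh, hdq z hz])
    have p1 := nonneg_of_deriv_nonneg
      (f := fun z => C / 56 * z ^ 8 + (z ^ 8 * σ.q z - z ^ 8)) (pc.add gc) (by simp)
      (fun z hz => (pd z).add (gd z hz)) (fun z hz => by linarith [(abs_le.1 (b1 z hz.le)).1]) hy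
    have p2 := nonneg_of_deriv_nonneg
      (f := fun z => C / 56 * z ^ 8 - (z ^ 8 * σ.q z - z ^ 8)) (pc.sub gc) (by simp)
      (fun z hz => (pd z).sub (gd z hz)) (fun z hz => by linarith [(abs_le.1 (b1 z hz.le)).2]) hy
    exact abs_le.2 ⟨by linarith, by linarith⟩
  intro y hy
  have h8 : (0:ℝ) < y ^ 8 := by positivity
  have h7 : (0:ℝ) < y ^ 7 := by positivity
  have c0 : |σ.q y - 1| ≤ C / 56 := by
    refine le_of_mul_le_mul_left ?_ h8
    calc y ^ 8 * |σ.q y - 1| = |y ^ 8 * σ.q y - y ^ 8| := by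
          rw [show y ^ 8 * σ.q y - y ^ 8 = y ^ 8 * (σ.q y - 1) by ring, abs_mul, abs_of_pos h8]
      _ ≤ C / 56 * y ^ 8 := b0 y hy.le
      _ = y ^ 8 * (C / 56) := mul_comm _ _
  have c1 : |8 * (σ.q y - 1) + y * deriv σ.q y| ≤ C / 7 := by
    refine le_of_mul_le_mul_left ?_ h7
    calc y ^ 7 * |8 * (σ.q y - 1) + y * deriv σ.q y| = |hh y| := by
          rw [show hh y = y ^ 7 * (8 * (σ.q y - 1) + y * deriv σ.q y) by
            simp only [hh, hdq y hy]; ring, abs_mul, abs_of_pos h7]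
      _ ≤ C / 7 * y ^ 7 := b1 y hy.le
      _ = y ^ 7 * (C / 7) := mul_comm _ _
  have c2 : y ^ 2 * deriv (deriv σ.q) y
      = -(16 * (y * deriv σ.q y)) - 56 * (σ.q y - 1) - y * σ.S y := by
    have := q_second σ hy
    have h6 : (y ^ 6 : ℝ) ≠ 0 := by positivity
    apply mul_left_cancel₀ h6
    linear_combination this
  have hS : |y * σ.S y| ≤ C := by rw [abs_mul, abs_of_pos hy]; exact (hC y hy.le).2
  rw [abs_le] at c0 c1 hS
  refine ⟨by linarith, abs_le.2 ⟨by linarith, by linarith⟩, ?_⟩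
  rw [c2, abs_le]
  constructor <;> linarith

theorem q_eventually {δ : ℝ} (hδ : 0 < δ) :
    ∃ Y : ℝ, 0 < Y ∧ ∀ y, Y ≤ y → |1 / σ.q y - 1 / σ.c| ≤ δ := by
  have h := σ.q_lim.inv₀ σ.c_pos.ne'
  obtain ⟨Y, hY⟩ := eventually_atTop.1 (Metric.tendsto_nhds.1 h δ hδ)
  refine ⟨max Y 1, by positivity, fun y hy => ?_⟩
  have := hY y ((le_max_left _ _).trans hy)
  rw [Real.dist_eq] at this
  simpa [one_div] using this.le

theorem q_lower : ∃ m : ℝ, 0 < m ∧ ∀ y, 0 ≤ y → m ≤ σ.q y := by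
  obtain ⟨Y, hY⟩ := eventually_atTop.1 (σ.q_lim.eventually_const_le (half_lt_self σ.c_pos))
  obtain ⟨z, hz, hmin⟩ := isCompact_Icc.exists_isMinOn (nonempty_Icc.2 (le_max_right Y 0))
    (σ.q_smooth.continuousOn.mono fun _ h => h.1)
  refine ⟨min (σ.q z) (σ.c / 2), lt_min (σ.q_pos z hz.1) (by linarith [σ.c_pos]), fun y hy => ?_⟩
  rcases le_total y (max Y 0) with h | h
  · exact (min_le_left _ _).trans (hmin ⟨hy, h⟩)
  · exact (min_le_right _ _).trans (hY y ((le_max_left _ _).trans h))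

/-- `D'` written out. -/
noncomputable def dD (y : ℝ) : ℝ := (Dcor σ y - 2 * σ.S y) / y

theorem hasDerivAt_dD {y : ℝ} (hy : 0 < y) :
    HasDerivAt (dD σ) ((1 / σ.q y - 1 / σ.c) / y) y := by
  have hS : HasDerivAt σ.S (1 / (2 * σ.c) - 1 / (2 * σ.q y)) y := by
    rw [← σ.shrink y hy]
    exact ((Dict.S_smoothAt σ hy).differentiableAt (by simp)).hasDerivAt
  have h := ((Dict.hasDerivAt_Dcor σ hy).sub (hS.const_mul 2)).div (hasDerivAt_id y) hy.ne'
  refine h.congr_deriv ?_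
  simp only [id, Pi.sub_apply]
  field_simp [hy.ne', σ.c_pos.ne', (σ.q_pos y hy.le).ne']
  ring

theorem D_bounds : ∃ C : ℝ, 0 ≤ C ∧ ∀ y, 0 < y →
    |Dcor σ y| ≤ C / y ∧ |dD σ y| ≤ C / y ^ 2 := by
  obtain ⟨C, hC0, hC⟩ := S_bound σ
  refine ⟨3 * C, by linarith, fun y hy => ?_⟩
  have hD : |Dcor σ y| ≤ C / y := by
    have hi := integrableOn_Ioi_rpow_of_lt (a := -3) (by norm_num) hy
    have hb : |∫ z in Ioi y, 2 * σ.S z / z ^ 2| ≤ ∫ z in Ioi y, 2 * C * z ^ (-3 : ℝ) := by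
      refine norm_integral_le_of_norm_le (f := fun z => 2 * σ.S z / z ^ 2) (hi.const_mul _) ?_
      rw [ae_restrict_iff' measurableSet_Ioi]
      refine Eventually.of_forall fun z hz => ?_
      have hz0 : 0 < z := hy.trans hz
      rw [Real.norm_eq_abs, abs_div, abs_mul, abs_two, abs_of_pos (pow_pos hz0 2),
        Real.rpow_neg hz0.le, show (3:ℝ) = ((3:ℕ):ℝ) by norm_num, Real.rpow_natCast,
        div_le_iff₀ (pow_pos hz0 2)]
      calc 2 * |σ.S z| = 2 * (z * |σ.S z|) / z := by field_simp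
        _ ≤ 2 * C / z := by gcongr; exact (hC z hz0.le).2
        _ = 2 * C * (z ^ 3)⁻¹ * z ^ 2 := by field_simp
    rw [integral_const_mul, integral_Ioi_rpow_of_lt (by norm_num) hy] at hb
    rw [Dcor, abs_mul, abs_of_pos hy]
    calc y * |∫ z in Ioi y, 2 * σ.S z / z ^ 2| ≤ y * (2 * C * (-y ^ (-3 + 1 : ℝ) / (-3 + 1))) :=
          mul_le_mul_of_nonneg_left hb hy.le
      _ = C / y := by
          rw [show (-3 + 1 : ℝ) = -((2:ℕ):ℝ) by norm_num, Real.rpow_neg hy.le, Real.rpow_natCast]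
          push_cast
          field_simp
  refine ⟨hD.trans (by gcongr; linarith), ?_⟩
  rw [dD, abs_div, abs_of_pos hy, div_le_div_iff₀ hy (by positivity)]
  calc |Dcor σ y - 2 * σ.S y| * y ^ 2 ≤ (C / y + 2 * |σ.S y|) * y ^ 2 := by
        gcongr
        exact (abs_sub _ _).trans (by rw [abs_mul, abs_two]; linarith)
    _ = (C + 2 * (y * |σ.S y|)) * y := by field_simp
    _ ≤ 3 * C * y := by gcongr; linarith [(hC y hy.le).2]

end Vale.Agent.P264.Ref
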