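import Vale.Agent.P264.Ref.Tail
import Vale.Agent.P264.Ref.Bd

/-!
The reference at unit length: for small scales `r = sqrt (1 - t)` it is a smooth family of
profiles, comparable to the distance to the ends, with bounded slope and bounded defect.
-/

namespace Vale.Agent.P264.Ref

open Set Filter
open scoped ContDiff Topology

variable (σ : Shrinker) {r₀ r u : ℝ}

theorem contDiffAt_scaled {f : ℝ → ℝ} (hf : ∀ y, 0 < y → ContDiffAt ℝ ∞ f y)
    (hr : 0 < r) (hu : 0 < u) : ContDiffAt ℝ ∞ (fun z => f (z / r)) u :=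
  (hf _ (div_pos hu hr)).comp u (contDiffAt_id.div_const r)

theorem hasDerivAt_scaled {f : ℝ → ℝ} {f' : ℝ} (h : HasDerivAt f f' (u / r)) :
    HasDerivAt (fun z => f (z / r)) (f' / r) u :=
  (h.comp u ((hasDerivAt_id u).div_const r)).congr_deriv (by ring)

theorem contDiffAt_dD {y : ℝ} (hy : 0 < y) : ContDiffAt ℝ ∞ (dD σ) y :=
  ((Dict.contDiffAt_Dcor σ hy).sub (contDiffAt_const.mul (Dict.S_smoothAt σ hy))).div
    contDiffAt_id hy.ne'

theorem ubd_q : UBd r₀ fun r u => σ.q (u / r) := by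
  obtain ⟨Q, hQ1, hQ⟩ := q_bounds σ
  refine UBd.of_deriv (G := fun r u => deriv σ.q (u / r) / r) ⟨64 * Q, fun r hr u hu => ?_⟩
    (fun r hr u hu => (contDiffAt_scaled (fun y hy => q_smoothAt σ hy) hr.1
      (by linarith [hu.1])).of_le (WithTop.coe_le_coe.2 le_top))
    (fun r hr u hu => hasDerivAt_scaled (hasDerivAt_q σ (div_pos (by linarith [hu.1]) hr.1)))
    ⟨Q, fun r hr u hu => ?_⟩
  · have hu0 : 0 < u := by linarith [hu.1]
    have hy := div_pos hu0 hr.1
    rw [((hasDerivAt_scaled (hasDerivAt_dq σ hy)).div_const r).deriv]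
    obtain ⟨-, b1, b2⟩ := hQ _ hy
    have e1 : deriv σ.q (u / r) / r = u / r * deriv σ.q (u / r) / u := by
      field_simp
    have e2 : deriv (deriv σ.q) (u / r) / r / r
        = (u / r) ^ 2 * deriv (deriv σ.q) (u / r) / u ^ 2 := by field_simp
    rw [e1, e2]
    constructor
    · rw [abs_div, abs_of_pos hu0, div_le_iff₀ hu0]
      calc |u / r * deriv σ.q (u / r)| ≤ Q * 1 := by simpa using b1
        _ ≤ 64 * Q * u := by nlinarith [hu.1]
    · rw [abs_div, abs_of_pos (pow_pos hu0 2), div_le_iff₀ (pow_pos hu0 2)]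
      calc |(u / r) ^ 2 * deriv (deriv σ.q) (u / r)| ≤ Q := b2
        _ = 64 * Q * (1 / 8) ^ 2 := by ring
        _ ≤ 64 * Q * u ^ 2 := by gcongr; exact hu.1.le
  · have hy := div_pos (show 0 < u by linarith [hu.1]) hr.1
    rw [abs_of_pos (σ.q_pos _ hy.le)]
    exact (hQ _ hy).1

/-- `(r D(u/r))''`. -/
noncomputable def gap (r u : ℝ) : ℝ := ((σ.q (u / r))⁻¹ + -(σ.c)⁻¹) * u⁻¹

theorem ubd_gap : UBd r₀ (gap σ) := by
  obtain ⟨m, hm, hlo⟩ := q_lower σ
  refine UBd.mul (((ubd_q σ).inv hm fun r hr u hu => ?_).add (UBd.const_fun contDiff_const))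
    ((UBd.const_fun (f := fun z : ℝ => z) contDiff_id).inv (m := 1 / 8) (by norm_num)
      fun r _ u hu => ?_)
  · exact (hlo _ (div_pos (show 0 < u by linarith [hu.1]) hr.1).le).trans (le_abs_self _)
  · exact hu.1.le.trans (le_abs_self _)

theorem hasDerivAt_dD_scaled (hr : 0 < r) (hu : 0 < u) :
    HasDerivAt (fun z => dD σ (z / r)) (gap σ r u) u := by
  refine (hasDerivAt_scaled (hasDerivAt_dD σ (div_pos hu hr))).congr_deriv ?_
  rw [gap, one_div, one_div]
  field_simp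
  ring

theorem ubd_dD (hr₀ : r₀ ≤ 1) : UBd r₀ fun r u => dD σ (u / r) := by
  obtain ⟨C, hC0, hC⟩ := D_bounds σ
  obtain ⟨B, -, hB⟩ := ubd_gap σ (r₀ := r₀)
  refine UBd.of_deriv ⟨B, fun r hr u hu => ⟨(hB r hr u hu).2.1, (hB r hr u hu).2.2.1⟩⟩
    (fun r hr u hu => (contDiffAt_scaled (fun y hy => contDiffAt_dD σ hy) hr.1
      (by linarith [hu.1])).of_le (WithTop.coe_le_coe.2 le_top))
    (fun r hr u hu => hasDerivAt_dD_scaled σ hr.1 (by linarith [hu.1]))
    ⟨64 * C, fun r hr u hu => ?_⟩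
  have hu0 : 0 < u := by linarith [hu.1]
  refine ((hC _ (div_pos hu0 hr.1)).2).trans ?_
  rw [div_pow, div_div_eq_mul_div, div_le_iff₀ (pow_pos hu0 2)]
  calc C * r ^ 2 ≤ 64 * C * (1 / 8) ^ 2 := by
        nlinarith [mul_le_mul_of_nonneg_left (pow_le_one₀ (n := 2) hr.1.le (hr.2.trans hr₀)) hC0]
    _ ≤ 64 * C * u ^ 2 := by gcongr; exact hu.1.le

theorem hasDerivAt_rD (hr : 0 < r) (hu : 0 < u) :
    HasDerivAt (fun z => r * Dcor σ (z / r)) (dD σ (u / r)) u :=
  ((hasDerivAt_scaled (Dict.hasDerivAt_Dcor σ (div_pos hu hr))).const_mul r).congr_deriv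
    (by rw [dD]; field_simp)

theorem ubd_rD (hr₀ : r₀ ≤ 1) : UBd r₀ fun r u => r * Dcor σ (u / r) := by
  obtain ⟨C, hC0, hC⟩ := D_bounds σ
  obtain ⟨B, -, hB⟩ := ubd_dD σ hr₀
  refine UBd.of_deriv ⟨B, fun r hr u hu => ⟨(hB r hr u hu).2.1, (hB r hr u hu).2.2.1⟩⟩
    (fun r hr u hu => (contDiffAt_const.mul (contDiffAt_scaled
      (fun y hy => Dict.contDiffAt_Dcor σ hy) hr.1 (by linarith [hu.1]))).of_le
      (WithTop.coe_le_coe.2 le_top))
    (fun r hr u hu => hasDerivAt_rD σ hr.1 (by linarith [hu.1])) ⟨8 * C, fun r hr u hu => ?_⟩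
  have hu0 : 0 < u := by linarith [hu.1]
  rw [abs_mul, abs_of_pos hr.1]
  refine (mul_le_mul_of_nonneg_left (hC _ (div_pos hu0 hr.1)).1 hr.1.le).trans ?_
  rw [div_div_eq_mul_div, ← mul_div_assoc, div_le_iff₀ hu0]
  calc r * (C * r) ≤ 8 * C * (1 / 8) := by
        nlinarith [mul_le_mul_of_nonneg_left (pow_le_one₀ (n := 2) hr.1.le (hr.2.trans hr₀)) hC0]
    _ ≤ 8 * C * u := by gcongr; exact hu.1.le

/-- Second derivative of the outer potential at unit length. -/
noncomputable def outE (r u : ℝ) : ℝ :=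
  deriv (deriv (chiL 1)) u * (r * Dcor σ (u / r))
    + 2 * deriv (chiL 1) u * dD σ (u / r) + chiL 1 u * gap σ r u

theorem deriv2_outPot (hr : 0 < r) (hu : 0 < u) :
    deriv (deriv (Dict.outPot σ 1 r)) u = outE σ r u := by
  have c1 : ContDiff ℝ ∞ (chiL 1) := Dict.chiL_smooth 1
  have c2 : ContDiff ℝ ∞ (deriv (chiL 1)) := (contDiff_infty_iff_deriv.1 c1).2
  have d1 : ∀ z, HasDerivAt (chiL 1) (deriv (chiL 1) z) z := fun z =>
    (c1.differentiable (by simp) z).hasDerivAt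
  have d2 : ∀ z, HasDerivAt (deriv (chiL 1)) (deriv (deriv (chiL 1)) z) z := fun z =>
    (c2.differentiable (by simp) z).hasDerivAt
  have e : deriv (Dict.outPot σ 1 r) =ᶠ[𝓝 u]
      fun z => deriv (chiL 1) z * (r * Dcor σ (z / r)) + chiL 1 z * dD σ (z / r) := by
    filter_upwards [Ioi_mem_nhds hu] with z hz
    exact ((d1 z).fun_mul (hasDerivAt_rD σ hr hz)).deriv
  rw [e.deriv_eq, (((d2 u).fun_mul (hasDerivAt_rD σ hr hu)).fun_add
    ((d1 u).fun_mul (hasDerivAt_dD_scaled σ hr hu))).deriv, outE]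
  ring

theorem ubd_outE (hr₀ : r₀ ≤ 1) : UBd r₀ (outE σ) := by
  have c1 : ContDiff ℝ ∞ (chiL 1) := Dict.chiL_smooth 1
  have c2 : ContDiff ℝ ∞ (deriv (chiL 1)) := (contDiff_infty_iff_deriv.1 c1).2
  have c3 : ContDiff ℝ ∞ (deriv (deriv (chiL 1))) := (contDiff_infty_iff_deriv.1 c2).2
  exact (((UBd.const_fun c3).mul (ubd_rD σ hr₀)).add
    (((UBd.const_fun contDiff_const).mul (UBd.const_fun c2)).mul (ubd_dD σ hr₀))).add
    ((UBd.const_fun c1).mul (ubd_gap σ))

/-- The outer profile at unit length is comparable to the distance to the ends. -/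
theorem phiOut_bounds : ∃ K : ℝ, 1 ≤ K ∧ ∀ u ∈ Ioo (0:ℝ) 1,
    min u (1 - u) ≤ K * phiOut σ 1 u ∧ phiOut σ 1 u ≤ K * min u (1 - u) := by
  have hc := σ.c_pos
  refine ⟨max (max (σ.c + 8) (1 / σ.c)) 1, le_max_right _ _, fun u hu => ?_⟩
  set K := max (max (σ.c + 8) (1 / σ.c)) 1
  have k1 : σ.c + 8 ≤ K := (le_max_left _ _).trans (le_max_left _ _)
  have k2 : 1 / σ.c ≤ K := (le_max_right _ _).trans (le_max_left _ _)
  have k3 : 1 ≤ K := le_max_right _ _
  have hKc : 1 ≤ K * σ.c := by rwa [div_le_iff₀ hc] at k2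
  have h0 : 0 ≤ chiL 1 u := Real.smoothTransition.nonneg _
  have h1 : chiL 1 u ≤ 1 := Real.smoothTransition.le_one _
  have hu0 := hu.1
  have hu1 : 0 < 1 - u := by linarith [hu.2]
  unfold phiOut
  constructor
  · have a : min u (1 - u) ≤ K * (σ.c * u) :=
      (min_le_left _ _).trans (by rw [← mul_assoc]; exact le_mul_of_one_le_left hu0.le hKc)
    have b : min u (1 - u) ≤ K * (1 - u) :=
      (min_le_right _ _).trans (le_mul_of_one_le_left hu1.le k3)
    calc min u (1 - u) = chiL 1 u * min u (1 - u) + (1 - chiL 1 u) * min u (1 - u) := by ring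
      _ ≤ chiL 1 u * (K * (σ.c * u)) + (1 - chiL 1 u) * (K * (1 - u)) :=
          add_le_add (mul_le_mul_of_nonneg_left a h0)
            (mul_le_mul_of_nonneg_left b (by linarith))
      _ = _ := by ring
  · rcases le_or_gt (1 / 2) u with h | h
    · rw [Dict.chiL_eq_zero one_pos h, min_eq_right (by linarith)]
      simpa using le_mul_of_one_le_left hu1.le k3
    · rw [min_eq_left (by linarith)]
      rcases le_or_gt u (1 / 4) with h4 | h4
      · rw [Dict.chiL_eq_one one_pos h4]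
        simpa using mul_le_mul_of_nonneg_right (by linarith : σ.c ≤ K) hu0.le
      · calc chiL 1 u * (σ.c * u) + (1 - chiL 1 u) * (1 - u)
            ≤ 1 * (σ.c * u) + 1 * (4 * u) :=
              add_le_add (mul_le_mul_of_nonneg_right h1 (by positivity))
                (mul_le_mul (by linarith) (by linarith) hu1.le (by linarith))
          _ ≤ K * u := by
              rw [one_mul, one_mul, ← add_mul]
              exact mul_le_mul_of_nonneg_right (by linarith) hu0.le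

/-- A scale below which the correction is small against the outer profile. -/
theorem small_scale : ∃ r₀ : ℝ, 0 < r₀ ∧ r₀ ≤ 1 ∧ ∀ r ∈ Ioc 0 r₀, ∀ u ∈ Ioo (1 / 8 : ℝ) 1,
    |phiOut σ 1 u * outE σ r u| ≤ 1 / 2 := by
  obtain ⟨C, hC0, hC⟩ := D_bounds σ
  obtain ⟨K, hK1, hK⟩ := phiOut_bounds σ
  obtain ⟨A, hA0, hA⟩ := UBd.const_fun (r₀ := 1) (Dict.chiL_smooth 1)
  obtain ⟨Y, hY0, hY⟩ := q_eventually σ (δ := 1 / (32 * K)) (by positivity)
  refine ⟨min (min 1 (1 / (8 * Y))) (1 / (4 * K * (8 * A * C + 128 * A * C + 1))),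
    by positivity, (min_le_left _ _).trans (min_le_left _ _), fun r hr u hu => ?_⟩
  have hu0 : 0 < u := by linarith [hu.1]
  have r1 : r ≤ 1 := hr.2.trans ((min_le_left _ _).trans (min_le_left _ _))
  have rY : r ≤ 1 / (8 * Y) := hr.2.trans ((min_le_left _ _).trans (min_le_right _ _))
  have rK := hr.2.trans (min_le_right _ _)
  have hy := div_pos hu0 hr.1
  have hYy : Y ≤ u / r := by
    rw [le_div_iff₀ hr.1]
    rw [le_div_iff₀ (by positivity)] at rY
    linarith [hu.1]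
  obtain ⟨-, a0, a1, a2⟩ := hA 1 ⟨one_pos, le_rfl⟩ u hu
  obtain ⟨d0, d1⟩ := hC _ hy
  have b1 : |r * Dcor σ (u / r)| ≤ 8 * C * r := by
    rw [abs_mul, abs_of_pos hr.1]
    refine (mul_le_mul_of_nonneg_left d0 hr.1.le).trans ?_
    rw [div_div_eq_mul_div, ← mul_div_assoc, div_le_iff₀ hu0]
    calc r * (C * r) ≤ 8 * C * r * (1 / 8) := by
          nlinarith [mul_le_mul_of_nonneg_left r1 (mul_nonneg hC0 hr.1.le)]
      _ ≤ 8 * C * r * u := mul_le_mul_of_nonneg_left hu.1.le (by nlinarith [hr.1])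
  have b2 : |dD σ (u / r)| ≤ 64 * C * r := by
    refine d1.trans ?_
    rw [div_pow, div_div_eq_mul_div, div_le_iff₀ (pow_pos hu0 2)]
    calc C * r ^ 2 ≤ 64 * C * r * (1 / 8) ^ 2 := by
          nlinarith [mul_le_mul_of_nonneg_left r1 (mul_nonneg hC0 hr.1.le)]
      _ ≤ 64 * C * r * u ^ 2 := mul_le_mul_of_nonneg_left
          (pow_le_pow_left₀ (by norm_num) hu.1.le 2) (by nlinarith [hr.1])
  have b3 : |gap σ r u| ≤ 1 / (4 * K) := by
    rw [gap, ← sub_eq_add_neg, abs_mul, abs_inv, abs_of_pos hu0, ← one_div, ← one_div σ.c]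
    refine (mul_le_mul (hY _ hYy) (inv_anti₀ (by norm_num) hu.1.le) (by positivity)
      (by positivity)).trans_eq ?_
    field_simp
    norm_num
  have bE : |outE σ r u| ≤ (8 * A * C + 128 * A * C) * r + 1 / (4 * K) := by
    rw [outE]
    refine (abs_add_le _ _).trans (add_le_add ((abs_add_le _ _).trans ?_) ?_)
    · rw [abs_mul, abs_mul (2 * _), abs_mul 2, abs_two, add_mul]
      refine add_le_add ((mul_le_mul a2 b1 (abs_nonneg _) hA0).trans_eq (by ring))
        ((mul_le_mul (mul_le_mul_of_nonneg_left a1 zero_le_two) b2 (abs_nonneg _)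
          (by linarith)).trans_eq (by ring))
    · rw [abs_mul, ← one_mul (1 / (4 * K))]
      refine mul_le_mul ?_ b3 (abs_nonneg _) zero_le_one
      rw [chiL, abs_of_nonneg (Real.smoothTransition.nonneg _)]
      exact Real.smoothTransition.le_one _
  have hpo : |phiOut σ 1 u| ≤ K := by
    rw [abs_of_pos (Dict.phiOut_pos σ ⟨hu0, hu.2⟩)]
    exact (hK u ⟨hu0, hu.2⟩).2.trans
      (mul_le_of_le_one_right (by linarith) ((min_le_left _ _).trans hu.2.le))
  rw [abs_mul]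
  refine (mul_le_mul hpo bE (abs_nonneg _) (by linarith)).trans ?_
  rw [le_div_iff₀ (by positivity)] at rK
  have e : K * (1 / (4 * K)) = 1 / 4 := by field_simp
  nlinarith [hr.1, mul_pos (show (0:ℝ) < K by linarith) hr.1]

end Vale.Agent.P264.Ref
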