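import Vale.Agent.P264.Ref.Unit

/-!
The reference at unit length for small scales.
-/

namespace Vale.Agent.P264.Ref

open Set Filter
open scoped ContDiff Topology

variable (σ : Shrinker) {r₀ t x : ℝ}

theorem deriv2_scale (g : ℝ → ℝ) (m k x : ℝ) :
    deriv (deriv (fun z => m * g (z / k))) x = m / k ^ 2 * deriv (deriv g) (x / k) := by
  have e : deriv (fun z => m * g (z / k)) = fun z => m / k * deriv g (k⁻¹ * z) := by
    funext z
    simp only [div_eq_inv_mul]
    rw [deriv_const_mul_field, deriv_comp_mul_left, smul_eq_mul]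
    ring
  rw [e, deriv_const_mul_field, deriv_comp_mul_left, smul_eq_mul, div_eq_inv_mul x k]
  ring

theorem scal_scale (f : ℝ → ℝ) {k : ℝ} (hk : k ≠ 0) (x : ℝ) :
    scal (fun z => k * f (z / k)) x = scal f (x / k) / k := by
  have e : (fun y => y ^ 7 * (k * f (y / k))) = fun y => k ^ 8 * ((y / k) ^ 7 * f (y / k)) := by
    funext y; field_simp
  rw [scal, scal, e, deriv2_scale (fun y => y ^ 7 * f y)]
  rcases eq_or_ne x 0 with h | h
  · simp [h]
  · field_simp

theorem scal_congr {f g : ℝ → ℝ} (h : f =ᶠ[𝓝 x] g) : scal f x = scal g x := by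
  have e : (fun y => y ^ 7 * f y) =ᶠ[𝓝 x] fun y => y ^ 7 * g y := by
    filter_upwards [h] with y hy; rw [hy]
  rw [scal, scal, e.deriv.deriv_eq]

theorem phiRef_inner (t : ℝ) {x : ℝ} (hx : x ≤ 1 / 4) :
    phiRef σ 1 t x = x * σ.q (x / Real.sqrt (1 - t)) := by
  rw [phiRef, if_pos hx]

theorem phiRef_outer (t : ℝ) {x : ℝ} (hx : 1 / 2 < x) :
    phiRef σ 1 t x = 1 - x := by
  have h2 : deriv (deriv (fun z => chiL 1 z *
      (Real.sqrt (1 - t) * Dcor σ (z / Real.sqrt (1 - t))))) x = 0 := by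
    have e : (fun z => chiL 1 z * (Real.sqrt (1 - t) * Dcor σ (z / Real.sqrt (1 - t))))
        =ᶠ[𝓝 x] fun _ => (0:ℝ) := by
      filter_upwards [Ioi_mem_nhds hx] with z hz
      rw [Dict.chiL_eq_zero one_pos hz.le, zero_mul]
    rw [e.deriv.deriv_eq]
    simp
  rw [phiRef, if_neg (by linarith), h2, mul_zero, add_zero, div_one, phiOut,
    Dict.chiL_eq_zero one_pos hx.le]
  ring

/-- The reference in closed form on `(0, 1)`. -/
noncomputable def refU (r x : ℝ) : ℝ := phiOut σ 1 x * (1 + phiOut σ 1 x * outE σ r x)⁻¹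

theorem phiRef_eq (ht : t < 1) (hx : x ∈ Ioo (0:ℝ) 1) :
    phiRef σ 1 t x = refU σ (Real.sqrt (1 - t)) x := by
  have hr : 0 < Real.sqrt (1 - t) := Real.sqrt_pos.2 (by linarith)
  have h := Dict.one_div_phiRef σ (L := 1) ht hx
  rw [deriv2_outPot σ hr hx.1] at h
  rw [← one_div_one_div (phiRef σ 1 t x), h, refU]
  have hp := (Dict.phiOut_pos σ hx).ne'
  rw [show 1 / phiOut σ 1 x + outE σ (Real.sqrt (1 - t)) x
    = (1 + phiOut σ 1 x * outE σ (Real.sqrt (1 - t)) x) / phiOut σ 1 x by field_simp,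
    one_div_div, div_eq_mul_inv]

theorem contDiff_phiOut : ContDiff ℝ ∞ (phiOut σ 1) := by
  have := Dict.chiL_smooth 1
  unfold phiOut
  exact (this.mul (contDiff_const.mul contDiff_id)).add
    ((contDiff_const.sub this).mul (contDiff_const.sub contDiff_id))

theorem one_add_ge {r : ℝ} (h : |phiOut σ 1 x * outE σ r x| ≤ 1 / 2) :
    1 / 2 ≤ |1 + phiOut σ 1 x * outE σ r x| := by
  have := (abs_le.1 h).1
  exact le_trans (by linarith) (le_abs_self _)

/-- All unit facts about the reference at small scales. -/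
theorem unit_facts : ∃ r₀ C : ℝ, 0 < r₀ ∧ r₀ ≤ 1 ∧ 1 ≤ C ∧
    ContDiffOn ℝ ∞ (Function.uncurry (phiRef σ 1)) (Ico (1 - r₀ ^ 2) 1 ×ˢ Icc 0 1) ∧
    ∀ t ∈ Ico (1 - r₀ ^ 2) 1, IsProfile 1 (phiRef σ 1 t) ∧ ∀ x ∈ Ioo (0:ℝ) 1,
      |deriv (phiRef σ 1 t) x| ≤ C ∧ |fRef σ 1 t x| ≤ C ∧ (x < 1 / 4 → fRef σ 1 t x = 0) ∧
      min x (1 - x) ≤ C * phiRef σ 1 t x ∧ phiRef σ 1 t x ≤ C * min x (1 - x) := by
  obtain ⟨r₀, hr0, hr1, hsmall⟩ := small_scale σ
  obtain ⟨Q, hQ1, hQ⟩ := q_bounds σ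
  obtain ⟨m, hm, hmq⟩ := q_lower σ
  obtain ⟨Ko, hKo1, hKo⟩ := phiOut_bounds σ
  obtain ⟨Cs, hCs0, hCs⟩ := S_bound σ
  have hout := UBd.const_fun (r₀ := r₀) (contDiff_phiOut σ)
  have href : UBd r₀ (refU σ) :=
    hout.mul (((UBd.const_fun contDiff_const).add (hout.mul (ubd_outE σ hr1))).inv
      (m := 1 / 2) (by norm_num) fun r hr u hu => one_add_ge σ (hsmall r hr u hu))
  obtain ⟨B, hB0, hB⟩ := href
  obtain ⟨B7, hB70, hB7⟩ : UBd r₀ fun r u => u ^ 7 * refU σ r u :=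
    (UBd.const_fun (contDiff_id.pow 7)).mul ⟨B, hB0, hB⟩
  have hrt : ∀ t ∈ Ico (1 - r₀ ^ 2) 1, Real.sqrt (1 - t) ∈ Ioc 0 r₀ := fun t ht =>
    ⟨Real.sqrt_pos.2 (by linarith [ht.2]), (Real.sqrt_le_left hr0.le).2 (by linarith [ht.1])⟩
  -- smoothness
  have hjoint : ContDiffOn ℝ ∞ (Function.uncurry (phiRef σ 1))
      (Ico (1 - r₀ ^ 2) 1 ×ˢ Icc 0 1) := by
    rintro ⟨t, x⟩ ⟨ht, hx⟩
    have hs : ∀ p ∈ Ico (1 - r₀ ^ 2) 1 ×ˢ Icc (0:ℝ) 1, ContDiffWithinAt ℝ ∞
        (fun p : ℝ × ℝ => Real.sqrt (1 - p.1)) (Ico (1 - r₀ ^ 2) 1 ×ˢ Icc (0:ℝ) 1) p := fun p hp =>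
      ((contDiffAt_const.sub contDiffAt_fst).sqrt
        (sub_ne_zero.2 (hp.1.2.ne'))).contDiffWithinAt
    rcases lt_or_ge x (1 / 4) with h | h
    · have hq : ContDiffOn ℝ ∞ (fun p : ℝ × ℝ => p.2 * σ.q (p.2 / Real.sqrt (1 - p.1)))
          (Ico (1 - r₀ ^ 2) 1 ×ˢ Icc (0:ℝ) 1) :=
        contDiff_snd.contDiffOn.mul (σ.q_smooth.comp (contDiff_snd.contDiffOn.div hs
          fun p hp => (hrt p.1 hp.1).1.ne') fun p hp => div_nonneg hp.2.1 (Real.sqrt_nonneg _))
      refine (hq (t, x) ⟨ht, hx⟩).congr_of_eventuallyEq ?_ (phiRef_inner σ t h.le)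
      filter_upwards [nhdsWithin_le_nhds ((isOpen_Iio.preimage continuous_snd).mem_nhds
        (show (t, x) ∈ Prod.snd ⁻¹' Iio (1 / 4 : ℝ) from h))] with p hp
      exact phiRef_inner σ p.1 (le_of_lt hp)
    rcases lt_or_ge (1 / 2) x with h2 | h2
    · refine (contDiff_const.sub contDiff_snd).contDiffWithinAt.congr_of_eventuallyEq
        (f := fun p : ℝ × ℝ => 1 - p.2) ?_ (phiRef_outer σ t h2)
      filter_upwards [nhdsWithin_le_nhds ((isOpen_Ioi.preimage continuous_snd).mem_nhds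
          (show (t, x) ∈ Prod.snd ⁻¹' Ioi (1 / 2 : ℝ) from h2))] with p hp2
      exact phiRef_outer σ p.1 hp2
    · have hx0 : 0 < x := by linarith
      have hr := hrt t ht
      have hxm : x ∈ Ioo (1 / 8 : ℝ) 1 := ⟨by linarith, by linarith⟩
      have hy : 0 < x / Real.sqrt (1 - t) := div_pos hx0 hr.1
      have hs' : ContDiffAt ℝ ∞ (fun p : ℝ × ℝ => Real.sqrt (1 - p.1)) (t, x) :=
        (contDiffAt_const.sub contDiffAt_fst).sqrt (sub_ne_zero.2 ht.2.ne')
      have hyd : ContDiffAt ℝ ∞ (fun p : ℝ × ℝ => p.2 / Real.sqrt (1 - p.1)) (t, x) :=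
        contDiffAt_snd.div hs' hr.1.ne'
      have c1 : ContDiff ℝ ∞ (chiL 1) := Dict.chiL_smooth 1
      have c2 : ContDiff ℝ ∞ (deriv (chiL 1)) := (contDiff_infty_iff_deriv.1 c1).2
      have c3 : ContDiff ℝ ∞ (deriv (deriv (chiL 1))) := (contDiff_infty_iff_deriv.1 c2).2
      have hgap : ContDiffAt ℝ ∞ (fun p : ℝ × ℝ => gap σ (Real.sqrt (1 - p.1)) p.2) (t, x) :=
        ((((q_smoothAt σ hy).comp (t, x) hyd).inv (σ.q_pos _ hy.le).ne').add
          contDiffAt_const).mul (contDiffAt_snd.inv hx0.ne')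
      have hE : ContDiffAt ℝ ∞ (fun p : ℝ × ℝ => outE σ (Real.sqrt (1 - p.1)) p.2) (t, x) :=
        (((c3.contDiffAt.comp (t, x) contDiffAt_snd).mul
            (hs'.mul ((Dict.contDiffAt_Dcor σ hy).comp (t, x) hyd))).add
          ((contDiffAt_const.mul (c2.contDiffAt.comp (t, x) contDiffAt_snd)).mul
            ((contDiffAt_dD σ hy).comp (t, x) hyd))).add
          ((c1.contDiffAt.comp (t, x) contDiffAt_snd).mul hgap)
      have ho : ContDiffAt ℝ ∞ (fun p : ℝ × ℝ => phiOut σ 1 p.2) (t, x) :=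
        (contDiff_phiOut σ).contDiffAt.comp (t, x) contDiffAt_snd
      have hne : (1 : ℝ) + phiOut σ 1 x * outE σ (Real.sqrt (1 - t)) x ≠ 0 := fun h0 => by
        have := one_add_ge σ (hsmall _ hr x hxm)
        rw [h0, abs_zero] at this
        norm_num at this
      refine (ho.mul ((contDiffAt_const.add (ho.mul hE)).inv hne)).contDiffWithinAt.congr_of_eventuallyEq
        ?_ (phiRef_eq σ ht.2 ⟨hx0, by linarith⟩)
      filter_upwards [self_mem_nhdsWithin,
        nhdsWithin_le_nhds ((isOpen_Ioo.preimage continuous_snd).mem_nhds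
          (show (t, x) ∈ Prod.snd ⁻¹' Ioo (1 / 8 : ℝ) 1 from hxm))] with p hp hp2
      exact phiRef_eq σ hp.1.2 ⟨lt_trans (by norm_num) hp2.1, hp2.2⟩
  refine ⟨r₀, max (max (2 * Q) (8 * B + 448 + 8 ^ 7 * B7 + 8 * Cs))
    (max (max Q (1 / m)) (2 * Ko)), hr0, hr1, ?_, hjoint, fun t ht => ?_⟩
  · exact le_trans (by linarith) ((le_max_right _ _).trans (le_max_right _ _))
  set C := max (max (2 * Q) (8 * B + 448 + 8 ^ 7 * B7 + 8 * Cs)) (max (max Q (1 / m)) (2 * Ko))
  have k1 : 2 * Q ≤ C := (le_max_left _ _).trans (le_max_left _ _)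
  have k2 : 8 * B + 448 + 8 ^ 7 * B7 + 8 * Cs ≤ C := (le_max_right _ _).trans (le_max_left _ _)
  have k3 : Q ≤ C := ((le_max_left _ _).trans (le_max_left _ _)).trans (le_max_right _ _)
  have k4 : 1 / m ≤ C := ((le_max_right _ _).trans (le_max_left _ _)).trans (le_max_right _ _)
  have k5 : 2 * Ko ≤ C := (le_max_right _ _).trans (le_max_right _ _)
  have hr := hrt t ht
  set r := Real.sqrt (1 - t)
  have hpos : ∀ x ∈ Ioo (0:ℝ) 1, 0 < phiRef σ 1 t x := by
    intro x hx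
    rcases le_or_gt x (1 / 4) with h | h
    · rw [phiRef_inner σ t h]
      exact mul_pos hx.1 (σ.q_pos _ (div_nonneg hx.1.le hr.1.le))
    · rw [phiRef_eq σ ht.2 hx, refU]
      exact mul_pos (Dict.phiOut_pos σ hx) (inv_pos.2 (by
        linarith [(abs_le.1 (hsmall r hr x ⟨by linarith, hx.2⟩)).1]))
  have hsmooth : ContDiffOn ℝ ∞ (phiRef σ 1 t) (Icc 0 1) :=
    hjoint.comp (contDiff_const.prodMk contDiff_id).contDiffOn fun z hz => ⟨ht, hz⟩
  refine ⟨⟨hsmooth, by rw [phiRef_inner σ t (by norm_num), zero_mul],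
    by rw [phiRef_outer σ t (by norm_num), sub_self], ?_, ?_, hpos⟩, fun x hx => ?_⟩
  · have hq : HasDerivWithinAt (fun z => σ.q (z / r))
        (derivWithin σ.q (Ici 0) 0 * (1 / r)) (Icc 0 1) 0 :=
      ((σ.q_smooth.differentiableOn (by simp) (0 / r) (by simp)).hasDerivWithinAt.comp 0
        ((hasDerivAt_id 0).div_const r).hasDerivWithinAt
        fun z hz => div_nonneg hz.1 hr.1.le).congr_deriv (by simp)
    have h := ((hasDerivWithinAt_id (0:ℝ) (Icc 0 1)).fun_mul hq).congr_of_eventuallyEq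
      (f₁ := phiRef σ 1 t) ?_ (by rw [phiRef_inner σ t (by norm_num)]; simp)
    · rw [h.derivWithin (uniqueDiffOn_Icc one_pos 0 (left_mem_Icc.2 zero_le_one))]
      simp [σ.q_zero]
    · filter_upwards [nhdsWithin_le_nhds (Iio_mem_nhds (show (0:ℝ) < 1 / 4 by norm_num))] with z hz
      exact phiRef_inner σ t (le_of_lt hz)
  · have h := ((hasDerivWithinAt_id (1:ℝ) (Icc 0 1)).const_sub 1).congr_of_eventuallyEq
      (f₁ := phiRef σ 1 t) ?_ (phiRef_outer σ t (by norm_num))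
    · exact h.derivWithin (uniqueDiffOn_Icc one_pos 1 (right_mem_Icc.2 zero_le_one))
    · filter_upwards [nhdsWithin_le_nhds (Ioi_mem_nhds (show (1 / 2:ℝ) < 1 by norm_num))] with z hz
      exact phiRef_outer σ t hz
  have hin : ∀ z ∈ Ioo (0:ℝ) (1 / 4), phiRef σ 1 t =ᶠ[𝓝 z] fun z => z * σ.q (z / r) := fun z hz => by
    filter_upwards [Iio_mem_nhds hz.2] with w hw using phiRef_inner σ t (le_of_lt hw)
  have hzero : x < 1 / 4 → fRef σ 1 t x = 0 := by
    intro h
    have e : (fun z => z * σ.q (z / r)) = fun z => r * (fun y => y * σ.q y) (z / r) := by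
      funext z; rw [← mul_assoc, mul_div_cancel₀ _ hr.1.ne']
    show chiL 1 x * (σ.S (x / r) / r) - scal (phiRef σ 1 t) x = 0
    rw [scal_congr (hin x ⟨hx.1, h⟩), e, scal_scale (fun y => y * σ.q y) hr.1.ne' x,
      ← σ.S_eq _ (div_pos hx.1 hr.1), Dict.chiL_eq_one one_pos h.le, one_mul, sub_self]
  rcases le_or_gt x (1 / 8) with h | h
  · have hy := div_pos hx.1 hr.1
    obtain ⟨q1, q2, -⟩ := hQ _ hy
    have qpos := σ.q_pos _ hy.le
    refine ⟨?_, by rw [hzero (by linarith), abs_zero]; linarith, hzero, ?_, ?_⟩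
    · have hd : HasDerivAt (fun z => z * σ.q (z / r)) _ x := (hasDerivAt_id x).fun_mul
        (hasDerivAt_scaled (hasDerivAt_q σ hy))
      rw [(hin x ⟨hx.1, by linarith⟩).deriv_eq, hd.deriv, id, one_mul,
        show x * (deriv σ.q (x / r) / r) = x / r * deriv σ.q (x / r) by ring]
      refine (abs_add_le _ _).trans ?_
      rw [abs_of_pos qpos]
      linarith
    · rw [phiRef_inner σ t (by linarith), min_eq_left (by linarith)]
      calc x = 1 / m * (x * m) := by field_simp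
        _ ≤ C * (x * σ.q (x / r)) := mul_le_mul k4
            (mul_le_mul_of_nonneg_left (hmq _ hy.le) hx.1.le) (mul_nonneg hx.1.le hm.le)
            (le_trans (by positivity) k4)
    · rw [phiRef_inner σ t (by linarith), min_eq_left (by linarith), mul_comm C]
      exact mul_le_mul_of_nonneg_left (q1.trans k3) hx.1.le
  · have hxm : x ∈ Ioo (1 / 8 : ℝ) 1 := ⟨h, hx.2⟩
    have e : phiRef σ 1 t =ᶠ[𝓝 x] refU σ r := eventuallyEq_of_mem (isOpen_Ioo.mem_nhds hxm)
      fun z hz => phiRef_eq σ ht.2 ⟨lt_trans (by norm_num) hz.1, hz.2⟩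
    obtain ⟨-, -, b1, -⟩ := hB r hr x hxm
    obtain ⟨-, -, -, b2⟩ := hB7 r hr x hxm
    have x8 : (1 / 8 : ℝ) ^ 7 ≤ x ^ 7 := pow_le_pow_left₀ (by norm_num) h.le 7
    refine ⟨by rw [e.deriv_eq]; linarith [pow_pos (show (0:ℝ) < 8 by norm_num) 7], ?_, hzero, ?_⟩
    · have s1 : |refS σ 1 t x| ≤ 8 * Cs := by
        rw [refS, abs_mul]
        refine (mul_le_of_le_one_left (abs_nonneg _) ?_).trans ?_
        · rw [chiL, abs_of_nonneg (Real.smoothTransition.nonneg _)]
          exact Real.smoothTransition.le_one _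
        · rw [abs_div, abs_of_pos hr.1, show |σ.S (x / r)| / r = x / r * |σ.S (x / r)| / x by
            field_simp, div_le_iff₀ hx.1]
          calc x / r * |σ.S (x / r)| ≤ Cs := (hCs _ (div_pos hx.1 hr.1).le).2
            _ = 8 * Cs * (1 / 8) := by ring
            _ ≤ 8 * Cs * x := mul_le_mul_of_nonneg_left h.le (by positivity)
      have s2 : |scal (phiRef σ 1 t) x| ≤ 448 + 8 ^ 7 * B7 := by
        rw [scal_congr e, scal]
        refine (abs_sub _ _).trans (add_le_add ?_ ?_)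
        · rw [abs_of_pos (div_pos (by norm_num) hx.1), div_le_iff₀ hx.1]
          linarith
        · rw [abs_div, abs_of_pos (pow_pos hx.1 7), div_le_iff₀ (pow_pos hx.1 7)]
          calc |deriv (deriv fun y => y ^ 7 * refU σ r y) x| ≤ B7 := b2
            _ = 8 ^ 7 * B7 * (1 / 8) ^ 7 := by ring
            _ ≤ 8 ^ 7 * B7 * x ^ 7 := mul_le_mul_of_nonneg_left x8 (by positivity)
      rw [fRef]
      linarith [abs_sub (refS σ 1 t x) (scal (phiRef σ 1 t) x)]
    · obtain ⟨o1, o2⟩ := hKo x hx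
      have hw := abs_le.1 (hsmall r hr x hxm)
      have op := Dict.phiOut_pos σ hx
      rw [phiRef_eq σ ht.2 hx, refU]
      set w := phiOut σ 1 x * outE σ r x
      have w0 : 0 < 1 + w := by linarith
      have C0 : 0 ≤ C := by linarith
      constructor
      · calc min x (1 - x) ≤ Ko * phiOut σ 1 x := o1
          _ = Ko * (1 + w) * (phiOut σ 1 x * (1 + w)⁻¹) := by field_simp
          _ ≤ C * (phiOut σ 1 x * (1 + w)⁻¹) := by
              refine mul_le_mul_of_nonneg_right ?_ (mul_nonneg op.le (inv_nonneg.2 w0.le))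
              calc Ko * (1 + w) ≤ Ko * 2 := by gcongr; linarith
                _ ≤ C := by linarith
      · calc phiOut σ 1 x * (1 + w)⁻¹ ≤ (Ko * min x (1 - x)) * 2 := by
              refine mul_le_mul o2 ?_ (inv_nonneg.2 w0.le) (op.le.trans o2)
              rw [inv_le_comm₀ w0 two_pos]
              linarith
          _ ≤ C * min x (1 - x) := by
              rw [mul_assoc, mul_comm _ (2:ℝ), ← mul_assoc, mul_comm Ko]
              exact mul_le_mul_of_nonneg_right k5 (le_min hx.1.le (by linarith [hx.2]))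

end Vale.Agent.P264.Ref
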